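import Vale.Agent.P273.H888.ExtH
import Vale.Agent.P273.H680.X0Fam
import Vale.Agent.P273.H375.PosOK
import Vale.Agent.P273.H728.ExtOf

/-!
The forms on the regions are the values of `F` on the local families, also where gaps vanish; the
statement `ExtOf`.
-/

noncomputable section

namespace Vale.Agent.P273.H450

open Set Filter H95 H183 H680
open scoped Topology ContDiff

variable {F : H503.Form16} {FS : (L → Bool) → E → (L → ℂ) → Alt 16 E}

/-- The form on the region is the value of `F` on a local family of the region, everywhere on the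
base of the family. -/
theorem formH_eq {R : Region} {S : L → Bool} (hS : H888.Far R S)
    (hF : IsClosedForm L 16 F) {C : Fam L 17} (hC : C.IsStable)
    (heq : ∀ p, (k17 R).symm p ∈ C.B → p ∈ H888.Gen R S →
      push (k17 R) (F 17 C) p = H888.pb FS R S p)
    {p : R.Sp} (hp : p ∈ R.dom S) (hb : (k17 R).symm p ∈ C.B) :
    H888.formH FS R S p = push (k17 R) (F 17 C) p := by
  have hP := H375.posOK hS
  obtain ⟨h1, h2, -⟩ := fam_push hF hC (k17 R)
  refine H888.extend_eq (hP.dense hp) (h2.contDiffAt (h1.mem_nhds hb)).continuousAt ?_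
  filter_upwards [mem_nhdsWithin_of_mem_nhds (h1.mem_nhds hb), self_mem_nhdsWithin] with q k1 k2
  exact heq q k1 k2

/-- `C` is a local family of the region: stable, with the standard form at the generic points. -/
structure LocFam (F : H503.Form16) (FS : (L → Bool) → E → (L → ℂ) → Alt 16 E) (R : Region)
    (S : L → Bool) (C : Fam L 17) : Prop where
  stable : C.IsStable
  eq : ∀ p, (k17 R).symm p ∈ C.B → p ∈ H888.Gen R S →
    push (k17 R) (F 17 C) p = H888.pb FS R S p

theorem push_comp {M A : Type} [NormedAddCommGroup M] [NormedSpace ℂ M] [NormedSpace ℝ M]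
    [IsScalarTower ℝ ℂ M] [NormedAddCommGroup A] [NormedSpace ℝ A] {m n : ℕ}
    (k : (Fin m → ℂ) ≃L[ℂ] M) (f : (Fin m → ℂ) → Alt n (Fin m → ℂ)) {φ : A → M} {b : A}
    (hφ : DifferentiableAt ℝ φ b) :
    (push k f (φ b)).compContinuousLinearMap (fderiv ℝ φ b) =
      (f (k.symm (φ b))).compContinuousLinearMap (fderiv ℝ (fun b => k.symm (φ b)) b) := by
  have h1 : fderiv ℝ (fun b => k.symm (φ b)) b = ((re k).symm : M →L[ℝ] (Fin m → ℂ)).comp
      (fderiv ℝ φ b) :=
    (((re k).symm : M →L[ℝ] (Fin m → ℂ)).hasFDerivAt.comp b hφ.hasFDerivAt).fderiv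
  rw [h1]
  rfl

/-- What the final states deliver for `ExtOf`: near every point of a stratum a local family of the
region, of which `C` is the pull-back. -/
def OfAt (F : H503.Form16) (FS : (L → Bool) → E → (L → ℂ) → Alt 16 E) : Prop :=
  ∀ (T : H93.RB) (S : H93.Mk → Bool), (∀ x, S x = true → (T.pl x).isRight = true) →
    ∀ (V E : Type) [Finite V] [Finite E] (h : (E × Bool) ⊕ H93.Mk → V)
      (nm : V → Bool ⊕ (Fin 3 × ℕ)) (ge : E → Fin 3 × ℕ), H728.Lab T h nm ge →
    ∀ (m : ℕ) (c : H837.Coord h m) (C : Fam H93.Mk m), C.IsStable → c.IsGlued C →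
    ∀ (U : Set (Fin m → ℂ)) (φ : (Fin m → ℂ) → (H728.rg T).Sp)
      (A : V → (Fin m → ℂ) → Matrix (Fin 2) (Fin 2) ℂ), IsOpen U → U ⊆ c.base →
    (∀ b ∈ U, AnalyticAt ℂ φ b) → (∀ b ∈ U, φ b ∈ (H728.rg T).dom S) →
    (∀ b ∈ U, ∀ g : (H728.rg T).Gap, (φ b).1 g = 0 ↔ (g.2 : ℕ) ∈ T.B g.1) →
    (∀ b ∈ U, ∀ v i j, AnalyticAt ℂ (fun b => A v b i j) b) → (∀ b ∈ U, ∀ v, (A v b).det ≠ 0) →
    (∀ b ∈ U, ∀ y, H837.pt b (c.c y) = H837.mob (A (h y) b) (H728.zz T S ge (φ b) y)) →
    ∀ b ∈ U, ∃ C' : Fam L 17, LocFam F FS (H728.rg T) S C' ∧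
      (k17 (H728.rg T)).symm (φ b) ∈ C'.B ∧
      F m C b = (F 17 C' ((k17 (H728.rg T)).symm (φ b))).compContinuousLinearMap
        (fderiv ℝ (fun b => (k17 (H728.rg T)).symm (φ b)) b)

/-- **`ExtOf` from local families.** -/
theorem extOf_of {X : Ext} (hX : ∀ R S, H888.Far R S → X.H R S = H888.formH FS R S)
    (hF : IsClosedForm L 16 F) (hO : OfAt F FS) : H728.ExtOf F X := by
  intro T S hS V E _ _ h nm ge hL m c C hC hG U φ A hU hUc hφ hdom hgap hA hdet hpt b hb
  obtain ⟨C', hl, hb', he⟩ := hO T S hS V E h nm ge hL m c C hC hG U φ A hU hUc hφ hdom hgap hA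
    hdet hpt b hb
  have hS' : H888.Far (H728.rg T) S := hS
  have h1 : X.H (H728.rg T) S (φ b) = push (k17 (H728.rg T)) (F 17 C') (φ b) := by
    rw [hX _ _ hS', formH_eq hS' hF hl.stable hl.eq (hdom b hb) hb']
  rw [h1, push_comp _ _ ((hφ b hb).differentiableAt.restrictScalars ℝ)]
  exact he

end Vale.Agent.P273.H450

end
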