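import Vale.Agent.P273.H894.Int
import Vale.Agent.P273.H450.OfReal

/-!
Assembly of `H95.Ext` and of `ExtAll` from their parts: the interior form `G = H894.extG FS`, the
forms on the regions with three necks (`H888.formH FS`) and the forms on the regions with one neck.
-/

noncomputable section

namespace Vale.Agent.P273.H450

open Set Filter H95 H183
open scoped Topology ContDiff

/-- The fields `hreg1` and `hext1` of `Ext`. -/
def Reg1 (G : (L → Bool) → E → (L → ℂ) → Alt 16 E)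
    (H1 : (R : Region1) → (L → Bool) → R.Sp → ℂ → (L → ℂ) → Alt 16 R.Sp) : Prop :=
  (∀ (R : Region1) (S : L → Bool), (∀ j, S j = true → R.nk j = false) → ∀ p g v,
    R.ok S p g v → ∃ (W : Set R.Sp) (h : R.Sp → Alt 16 R.Sp) (r : ℝ), IsOpen W ∧ p ∈ W ∧ 0 < r ∧
      ContDiffOn ℝ ∞ h W ∧ (∀ q ∈ W, extDeriv h q = 0) ∧
      ∀ q ∈ W, ∀ g' v', R.isSheet S q g' v' → ‖g' - g‖ < r →
        (∀ j, R.nk j = false → ‖v' j - v j‖ < r) → H1 R S q g' v' = h q) ∧
  ∀ (R : Region1) (S : L → Bool), (∀ j, S j = true → R.nk j = false) → ∀ p g v,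
    R.ok S p g v → R.isStd p g v →
    H1 R S p g v = (G S (R.psi p) (R.sht p g v)).compContinuousLinearMap (fderiv ℝ R.psi p)

/-- **The wall W3 from its parts.** -/
def mkExt {FS : (L → Bool) → E → (L → ℂ) → Alt 16 E} (hi : H894.Int.IntLoc FS)
    (hc : H894.Int.IntChg FS) (hloc : H888.RegLoc FS)
    {H1 : (R : Region1) → (L → Bool) → R.Sp → ℂ → (L → ℂ) → Alt 16 R.Sp}
    (h1 : Reg1 (H894.extG FS) H1) : Ext where
  G := H894.extG FS
  reg := H894.Int.extG_reg hi
  chg := H894.Int.extG_chg hi hc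
  H R S := H888.formH FS R S
  hreg R S hS := H888.formH_reg hloc hS (H375.posOK hS)
  hext R S hS _ hp hs := H888.formH_ext (H894.Int.extG_reg hi)
    (fun _ _ _ hK hD => H894.Int.extG_eq hi hK hD) (H375.posOK hS) hp hs
  H1 := H1
  hreg1 := h1.1
  hext1 := h1.2

/-- **Every closed form on the families has a wall.** `FS F` is the value of `F` on the standard
families at distinct marks (888). -/
theorem extAll_of (FS : H503.Form16 → (L → Bool) → E → (L → ℂ) → Alt 16 E)
    (hi : ∀ F, IsClosedForm L 16 F → H894.Int.IntLoc (FS F))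
    (hc : ∀ F, IsClosedForm L 16 F → H894.Int.IntChg (FS F))
    (hr : ∀ F, IsClosedForm L 16 F → H888.RegLoc (FS F))
    (h1 : ∀ F, IsClosedForm L 16 F → ∃ H1, Reg1 (H894.extG (FS F)) H1)
    (hO : ∀ F, IsClosedForm L 16 F → OfAt F (FS F)) :
    ∀ F : H503.Form16, IsClosedForm H503.Lg14 (8 * 2) F → ∃ X : Ext, H728.ExtOf F X := by
  intro F hF
  obtain ⟨H1, hH⟩ := h1 F hF
  exact ⟨mkExt (hi F hF) (hc F hF) (hr F hF) hH, extOf_of (fun _ _ _ => rfl) hF (hO F hF)⟩

end Vale.Agent.P273.H450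

end
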