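import Vale.Agent.P273.H883.Open1
import Vale.Agent.P273.H95.ExtH1
import Vale.Agent.P273.H450.CloseExt

/-!
The wall W3 from `IntLoc`, `IntChg`, `RegLoc`, `RegLoc1` of one function `FS`.
-/

noncomputable section

namespace Vale.Agent.P273.H450

open Set Filter H95 H183
open scoped Topology ContDiff

theorem pos1 : H95.Pos1 where
  k6 _ _ _ _ _ h := H883.ok_K6' h
  sq _ _ hS _ _ _ h j := H883.ok_sht_sq hS h j

theorem reg1_of {FS : (L → Bool) → E → (L → ℂ) → Alt 16 E} (hi : H894.Int.IntLoc FS)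
    (h1 : RegLoc1 FS) : ∃ H1, Reg1 (H894.extG FS) H1 :=
  H95.extH1 FS (H894.extG FS) (H894.Int.extG_reg hi)
    (fun _ _ _ hK hD => H894.Int.extG_eq hi hK hD) h1 pos1

/-- **Every closed form on the families has a wall.** -/
theorem extAll_of1 (FS : H503.Form16 → (L → Bool) → E → (L → ℂ) → Alt 16 E)
    (hi : ∀ F, IsClosedForm L 16 F → H894.Int.IntLoc (FS F))
    (hc : ∀ F, IsClosedForm L 16 F → H894.Int.IntChg (FS F))
    (hr : ∀ F, IsClosedForm L 16 F → H888.RegLoc (FS F))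
    (h1 : ∀ F, IsClosedForm L 16 F → RegLoc1 (FS F))
    (hO : ∀ F, IsClosedForm L 16 F → OfAt F (FS F)) :
    ∀ F : H503.Form16, IsClosedForm H503.Lg14 (8 * 2) F → ∃ X : Ext, H728.ExtOf F X :=
  extAll_of FS hi hc hr (fun F hF => reg1_of (hi F hF) (h1 F hF)) hO

end Vale.Agent.P273.H450

end
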