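import Vale.Agent.P273.H888.Real
import Vale.Agent.P273.H450.CloseExt1

/-!
From families realizing the curves and marks (`H888.Real`) to `RegLoc` and `LocFam`.
-/

noncomputable section

namespace Vale.Agent.P273.H450

open Set Filter H95 H183 H680
open scoped Topology ContDiff

/-- `FS` is the value of `F` on the standard families: the form of every family that realizes
curves and marks is the pull-back of `FS` at distinct marks. -/
def FSEq (F : H503.Form16) (FS : (L → Bool) → E → (L → ℂ) → Alt 16 E) : Prop :=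
  ∀ (n : ℕ) (M : Type) [NormedAddCommGroup M] [NormedSpace ℂ M] [NormedSpace ℝ M]
    [IsScalarTower ℝ ℂ M] (k : (Fin n → ℂ) ≃L[ℂ] M) (ψ : M → E) (S : L → Bool) (σ : M → L → ℂ)
    (C : Fam L n), H888.Real k ψ S σ C → ∀ p, k.symm p ∈ C.B → H888.Dist S (ψ p) (σ p) →
    push k (F n C) p = (FS S (ψ p) (σ p)).compContinuousLinearMap (fderiv ℝ ψ p)

/-- The families over the regions with three necks. -/
def RealReg : Prop :=
  ∀ (R : Region) (S : L → Bool), H888.Far R S → ∀ p₀ ∈ R.dom S,
    ∃ C : Fam L 17, H888.Real (k17 R) R.psi S (R.sht S) C ∧ (k17 R).symm p₀ ∈ C.B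

variable {F : H503.Form16} {FS : (L → Bool) → E → (L → ℂ) → Alt 16 E}

theorem locFam_of_real (hE : FSEq F FS) {R : Region} {S : L → Bool} {C : Fam L 17}
    (hC : H888.Real (k17 R) R.psi S (R.sht S) C) : LocFam F FS R S C where
  stable := hC.stable
  eq p hp hg := hE 17 R.Sp (k17 R) R.psi S (R.sht S) C hC p hp hg.2.2

theorem regLoc_of (hF : IsClosedForm L 16 F) (hE : FSEq F FS) (hA : RealReg) :
    H888.RegLoc FS := by
  intro R S hS p₀ hp₀
  obtain ⟨C, hC, hb⟩ := hA R S hS p₀ hp₀
  have hl := locFam_of_real hE hC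
  obtain ⟨h1, h2, h3⟩ := fam_push hF hl.stable (k17 R)
  exact ⟨_, _, h1, hb, h2, h3, fun p hp hg => hl.eq p hp hg⟩

end Vale.Agent.P273.H450

end
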