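import Vale.Agent.P273.H183.A1
import Vale.Agent.P273.H395.Comp
import Vale.Agent.P273.H450.Plug
import Vale.Agent.P273.H724.Real0
import Vale.Agent.P273.H883.RegLocF
import Vale.Agent.P273.H888.Pre

/-!
The wall W3 for every closed form on the families.
-/

noncomputable section

namespace Vale.Agent.P273.H450

open Set Filter H95 H183
open scoped Topology ContDiff

variable {F : H503.Form16}

theorem intLoc (hF : IsClosedForm L 16 F) : H894.Int.IntLoc (H888.FS F) := by
  intro S e v hK hv hs
  obtain ⟨g, W, r, hW, heW, hr, h1, h2, h3⟩ := H888.pre_loc a1 hF hK hv hs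
  exact ⟨W, g, r, hW, heW, hr, h1, h2, fun p hp v' k1 k2 => h3 p hp v' (fun j => (k2.1 j).1) k1 k2.2⟩

theorem intChg (hF : IsClosedForm L 16 F) : H894.Int.IntChg (H888.FS F) := by
  intro S S' e v hK hd h0
  exact H888.pre_chg a1 hF hK hd.1 hd.2 h0

theorem a2 : H888.A2 := by
  intro R S hS p₀ hp₀
  obtain ⟨C, h1, h2, -⟩ := H724.real0 hS hp₀
  exact ⟨C, h1, h2⟩

theorem fsEq (hF : IsClosedForm L 16 F) : FSEq F (H888.FS F) := by
  intro n M _ _ _ _ k ψ S σ C hR p hp hd
  exact H888.FS_eq a1 hF hR hp hd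

/-- **Every closed form on the families has a wall**, from the families near the strata. -/
theorem extAll_of_fin (hex : H395.FinEx) :
    ∀ F : H503.Form16, IsClosedForm H503.Lg14 (8 * 2) F → ∃ X : Ext, H728.ExtOf F X :=
  extAll_of1 (fun F => H888.FS F) (fun _ hF => intLoc hF) (fun _ hF => intChg hF)
    (fun _ hF => H888.regLoc a1 a2 hF) (fun _ hF => H883.regLoc1 a1 hF)
    (fun _ hF => H395.ofAt_of hF (fun _ _ _ _ hR => locFam_of_real (fsEq hF) hR) hex)

end Vale.Agent.P273.H450

end
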