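import Vale.Agent.P273.H450.ExtAll
import Vale.Agent.P273.H591.StartEx

/-! Every closed form on the families has a wall. -/

namespace Vale.Agent.P273.H450

/-- **Every closed form on the families has a wall.** -/
theorem extAll : ∀ F : H503.Form16, H183.IsClosedForm H503.Lg14 (8 * 2) F →
    ∃ X : H95.Ext, H728.ExtOf F X :=
  extAll_of_fin (H395.finEx_of_start H591.startEx)

end Vale.Agent.P273.H450
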